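import Vale.Agent.P218N.Top.Final
import Vale.Agent.P218N.C.All
import Vale.Agent.P218N.Ra.Main
import Vale.Agent.P218N.Xt.Main

/-! Uniqueness of tangent flows for mean curvature flows of surfaces in `ℝ³`. -/

open MeasureTheory Set
open scoped Manifold ContDiff
open Vale.Agent.P218 (IsIntegralBrakkeFlow IsTangentFlow)
open Vale.Agent.P218N.Top

theorem Vale.Agent.Results.P218.AllTangentFlows.result :
    (∀ (S : Type) [TopologicalSpace S] [ChartedSpace R2 S] [IsManifold (𝓡 2) ∞ S] [CompactSpace S]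
      [T2Space S] (X : ℝ → S → R3) (T : ℝ), IsMCF X T → Function.Injective (X 0) →
      ∀ μ : ℝ → Measure R3, (∀ t ∈ Ico 0 T, μ t = area (range (X t))) →
      ∀ (x₀ : R3) (t₀ : ℝ), 0 < t₀ → t₀ ≤ T → UniqueTangentFlow μ x₀ t₀) ∧
    ∀ μ : ℝ → Measure R3, IsIntegralBrakkeFlow 2 μ → μ 0 univ < ⊤ →
      ∀ (x₀ : R3) (t₀ : ℝ), 0 < t₀ →
      ((∃ (ε : ℝ) (g : ℕ), 0 < ε ∧ ∀ᵐ t : ℝ, t ∈ Ioo (t₀ - ε) t₀ →
          ∃ M : Set R3, IsSurface M ∧ GenusLE M g ∧ μ t = area M) ∨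
        ∃ (M : Set R3) (g : ℕ) (ν : ℝ → Measure R3), IsShrinker M ∧ GenusLE M g ∧
          IsTangentFlow 2 μ x₀ t₀ ν ∧ ν (-1) = area M) →
      UniqueTangentFlow μ x₀ t₀ :=
  result_of Vale.Agent.P218N.C.endsStmt
    (Vale.Agent.P218N.Ra.modelOfEnds_of Vale.Agent.P218N.Xt.extStmt)
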